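import Mathlib
import Vale.Agent.P219.Six.Geo

/-!
# The radial deformation fields and their first variation integrands
-/

open Filter Topology Set
open scoped ContDiff RealInnerProductSpace

set_option maxSynthPendingDepth 3

namespace Vale.Agent.P219.Six.FV

open Vale.Agent.P219 Vale.Agent.P219.Univ

noncomputable section

variable {n : ℕ} {g : MetricField n}

/-- A smooth extension of the profile `s ↦ 1 / (2 s + ε)` to negative `s`. -/
def prof (ε s : ℝ) : ℝ := 1 / (2 * (s * Real.smoothTransition ((4 * s + ε) / (ε / 2))) + ε)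

theorem prof_den_pos {ε : ℝ} (hε : 0 < ε) (s : ℝ) :
    0 < 2 * (s * Real.smoothTransition ((4 * s + ε) / (ε / 2))) + ε := by
  rcases le_or_gt (4 * s + ε) 0 with h | h
  · rw [Real.smoothTransition.zero_of_nonpos (div_nonpos_of_nonpos_of_nonneg h (by positivity))]
    simpa using hε
  · have h1 := Real.smoothTransition.nonneg ((4 * s + ε) / (ε / 2))
    have h2 := Real.smoothTransition.le_one ((4 * s + ε) / (ε / 2))
    rcases le_or_gt 0 s with hs | hs
    · positivity
    · nlinarith [mul_nonpos_of_nonpos_of_nonneg hs.le (sub_nonneg.2 h2)]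

theorem contDiff_prof {ε : ℝ} (hε : 0 < ε) {m : ℕ∞} : ContDiff ℝ m (prof ε) :=
  contDiff_const.div ((contDiff_const.mul (contDiff_id.mul
    (Real.smoothTransition.contDiff.comp (by fun_prop)))).add contDiff_const)
    fun s => (prof_den_pos hε s).ne'

theorem prof_eq {ε s : ℝ} (hε : 0 < ε) (hs : -(ε / 8) ≤ s) : prof ε s = 1 / (2 * s + ε) := by
  rw [prof, Real.smoothTransition.one_of_one_le (by rw [one_le_div (by positivity)]; linarith),
    mul_one]

theorem deriv_prof {ε s : ℝ} (hε : 0 < ε) (hs : 0 ≤ s) :
    deriv (prof ε) s = -2 / (2 * s + ε) ^ 2 := by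
  have he : prof ε =ᶠ[𝓝 s] fun u => 1 / (2 * u + ε) := by
    filter_upwards [isOpen_Ioi.mem_nhds (show -(ε / 8) < s by linarith)] with u hu
    exact prof_eq hε (le_of_lt hu)
  rw [he.deriv_eq]
  have hd := (((hasDerivAt_id s).const_mul 2).add_const ε).fun_inv
    (show 2 * s + ε ≠ 0 by positivity)
  simp only [one_div]
  rw [show (fun u : ℝ => (2 * u + ε)⁻¹) = fun u : ℝ => (2 * id u + ε)⁻¹ from rfl, hd.deriv]
  simp

theorem cov_congr {A B : Space n → Space n} {x : Space n} (h : A =ᶠ[𝓝 x] B) :
    cov g A x = cov g B x := by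
  funext v
  simp only [cov, h.fderiv_eq, h.eq_of_nhds]

theorem gDiv_congr (hg : IsMetric g) {A B : Space n → Space n} {x : Space n}
    (hA : DifferentiableAt ℝ A x) (h : A =ᶠ[𝓝 x] B) : gDiv g A x = gDiv g B x := by
  rw [gDiv_eq_trace hg hA, gDiv_eq_trace hg (hA.congr_of_eventuallyEq h.symm)]
  exact congrArg _ (LinearMap.ext fun v => congrFun (cov_congr h) v)

theorem cov_add {A B : Space n → Space n} {x : Space n} (hA : DifferentiableAt ℝ A x)
    (hB : DifferentiableAt ℝ B x) (v : Space n) :
    cov g (fun y => A y + B y) x v = cov g A x v + cov g B x v := by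
  simp only [cov, fderiv_fun_add hA hB, _root_.add_apply, Geo.gam_add₂]
  abel

theorem gDiv_add (hg : IsMetric g) {A B : Space n → Space n} {x : Space n}
    (hA : DifferentiableAt ℝ A x) (hB : DifferentiableAt ℝ B x) :
    gDiv g (fun y => A y + B y) x = gDiv g A x + gDiv g B x := by
  rw [gDiv_eq_trace hg hA, gDiv_eq_trace hg hB, gDiv_eq_trace hg (hA.fun_add hB), ← map_add]
  exact congrArg _ (LinearMap.ext fun v => cov_add hA hB v)

variable {Exp Log : Space n → Space n → Space n}

theorem pot_psi (hn : 2 ≤ n) (hg : IsMetric g) (hc : JointCharts g Exp Log) (hs : SecBound g 0)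
    (a : Space n) : Pot g 0 a (psi Log a) := by
  have h := pot_of_chart hn hg le_rfl hs hc.normalCharts (hc.chart a) (hc.smooth_log_at a)
    (hc.left a) (hc.right a)
  rwa [neg_zero, Real.sqrt_zero] at h

/-- The radial field of the profile `prof ε` at `a`. -/
def radial (g : MetricField n) (Log : Space n → Space n → Space n) (ε : ℝ) (a x : Space n) :
    Space n :=
  prof ε (psi Log a x) • gGrad g (psi Log a) x

/-- The deformation field: radial at `a`, a little towards the centre `o`, cut off outside. -/
def field (g : MetricField n) (Log : Space n → Space n → Space n) (ε κ : ℝ) (o : Space n) (M : ℝ)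
    (a x : Space n) : Space n :=
  Real.smoothTransition (M + 2 - psi Log o x) •
    (radial g Log ε a x + κ • gGrad g (psi Log o) x)

variable (hn : 2 ≤ n) (hg : IsMetric g) (hc : JointCharts g Exp Log) (hs : SecBound g 0)

omit hn hs in
include hg hc in
theorem contDiff_radial {ε : ℝ} (hε : 0 < ε) (a : Space n) :
    ContDiff ℝ ∞ (radial g Log ε a) :=
  ((contDiff_prof hε).comp (hc.smooth_psi_at a)).smul (contDiff_gGrad hg (hc.smooth_psi_at a))

omit hn hs in
include hg hc in
theorem contDiff_field {ε : ℝ} (hε : 0 < ε) (κ : ℝ) (o : Space n) (M : ℝ) (a : Space n) :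
    ContDiff ℝ ∞ (field g Log ε κ o M a) :=
  (Real.smoothTransition.contDiff.comp (contDiff_const.sub (hc.smooth_psi_at o))).smul
    ((contDiff_radial hg hc hε a).add ((contDiff_gGrad hg (hc.smooth_psi_at o)).const_smul κ))

include hn hg hc hs in
theorem compact_field (ε κ : ℝ) (o : Space n) (M : ℝ) (a : Space n) :
    HasCompactSupport (field g Log ε κ o M a) := by
  refine HasCompactSupport.intro ((pot_psi hn hg hc hs o).compact (M + 2)) fun x hx => ?_
  have hx' : ¬ psi Log o x ≤ M + 2 := hx
  rw [field, Real.smoothTransition.zero_of_nonpos (by linarith [not_le.1 hx']), zero_smul]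

omit hn hs in
include hc in
theorem field_eventually {ε κ : ℝ} {o : Space n} {M : ℝ} {a x : Space n} (hx : psi Log o x ≤ M) :
    field g Log ε κ o M a =ᶠ[𝓝 x]
      fun y => radial g Log ε a y + κ • gGrad g (psi Log o) y := by
  filter_upwards [(hc.smooth_psi_at o).continuous.continuousAt.eventually_lt_const
    (show psi Log o x < M + 1 by linarith)] with y hy
  rw [field, Real.smoothTransition.one_of_one_le (by linarith), one_smul]

include hn hg hc hs in
/-- The first variation integrand of the field is at least `beta`. -/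
theorem theta_lower {ε κ : ℝ} (hε : 0 < ε) (hκ : 0 ≤ κ) {o : Space n} {M : ℝ} {a x : Space n}
    (hx : psi Log o x ≤ M) {N : Space n} (hN : g x N N = 1) :
    ((n : ℝ) - 1) / (2 * psi Log a x + ε) -
        2 * (2 * psi Log a x - fderiv ℝ (psi Log a) x N ^ 2) / (2 * psi Log a x + ε) ^ 2 ≤
      gDiv g (field g Log ε κ o M a) x - g x (cov g (field g Log ε κ o M a) x N) N := by
  have hpa := pot_psi hn hg hc hs a
  have hpo := pot_psi hn hg hc hs o
  have hr : DifferentiableAt ℝ (radial g Log ε a) x :=
    (contDiff_radial hg hc hε a).differentiable (by simp) x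
  have hG : DifferentiableAt ℝ (gGrad g (psi Log o)) x :=
    (contDiff_gGrad hg hpo.smooth).differentiable (by simp) x
  have hF : DifferentiableAt ℝ (field g Log ε κ o M a) x :=
    (contDiff_field hg hc hε κ o M a).differentiable (by simp) x
  have hev := field_eventually (g := g) hc (ε := ε) (κ := κ) (a := a) hx
  rw [cov_congr hev, gDiv_congr hg hF hev, cov_add hr (hG.fun_const_smul κ),
    gDiv_add hg hr (hG.fun_const_smul κ), gDiv_smul hg (differentiableAt_const κ) hG,
    cov_smul hg (differentiableAt_const κ) hG, map_add, _root_.add_apply]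
  have hs0 : 0 ≤ psi Log a x := hpa.nonneg x
  have hp0 : prof ε (psi Log a x) = 1 / (2 * psi Log a x + ε) := prof_eq hε (by linarith)
  have hp1 : deriv (prof ε) (psi Log a x) = -2 / (2 * psi Log a x + ε) ^ 2 := deriv_prof hε hs0
  have h1 := (radial_div hg hpa (contDiff_prof (m := (2 : ℕ∞)) hε) x
    (by rw [hp0]; positivity)
    (by rw [hp1]; exact div_nonpos_of_nonpos_of_nonneg (by norm_num) (sq_nonneg _))).1 N
  have h2 := (radial_div hg hpo (η := fun _ => 1) contDiff_const x zero_le_one (by simp)).1 N
  simp only [one_smul, deriv_const', hN, mul_one] at h1 h2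
  rw [show (fun y => prof ε (psi Log a y) • gGrad g (psi Log a) y) = radial g Log ε a from rfl,
    hp0, hp1] at h1
  simp only [fderiv_fun_const, Pi.zero_apply, zero_apply, zero_smul, add_zero, map_smul, smul_apply,
    smul_eq_mul]
  have h3 : 0 ≤ gDiv g (gGrad g (psi Log o)) x - g x (cov g (gGrad g (psi Log o)) x N) N := by
    have : (2 : ℝ) ≤ n := by exact_mod_cast hn
    linarith
  have h4 := mul_nonneg hκ h3
  refine le_trans (le_of_eq ?_) (h1.trans ?_)
  · ring
  · linarith

end

end Vale.Agent.P219.Six.FV
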