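import Mathlib
import Vale.Agent.P219.Six.Defs
import Vale.Agent.P219.Univ.FirstVar.Map

/-!
# Domains moved by the maps `x ↦ x - t • X x`
-/

open Filter Topology Set
open scoped ContDiff

namespace Vale.Agent.P219.Six.FV

open Vale.Agent.P219 Vale.Agent.P219.Univ Vale.Agent.P219.Univ.FirstVar

noncomputable section

variable {n : ℕ} {X : Space n → Space n} {φ : Space n → ℝ} {t : ℝ}

/-- The image of a domain under a good deformation is a domain. -/
theorem image_domain (hX : ContDiff ℝ 2 X) (hXc : HasCompactSupport X) (hgood : Good X t)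
    (hd : Defining φ) : ∃ φ', Defining φ' ∧ sub φ' 0 = disp X t '' sub φ 0 := by
  obtain ⟨e, he⟩ := hgood.homeo
  have hfd : ∀ a, HasFDerivAt (⇑e) (((dDisp X t a).toContinuousLinearEquivOfDetNeZero
      (hgood.jac_pos a).ne' : Space n ≃L[ℝ] Space n) : Space n →L[ℝ] Space n) a := fun a => by
    rw [he]; exact hasFDerivAt_disp hX t a
  have hes : ContDiff ℝ 2 (⇑e) := by
    rw [he]; exact (contDiff_disp hX).comp (contDiff_const.prodMk contDiff_id)
  have hsymm : ContDiff ℝ 2 ⇑e.symm := e.contDiff_symm hfd hes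
  refine ⟨fun y => φ (e.symm y), ⟨hd.smooth.comp hsymm, ?_, fun y hy h0 => ?_⟩, ?_⟩
  · obtain ⟨R, hR⟩ := hd.far
    obtain ⟨R', hR'⟩ := hXc.isCompact.isBounded.subset_closedBall 0
    refine ⟨max R (R' + 1), fun y hy => ?_⟩
    have hy' : y ∉ tsupport X := fun h => by
      have := mem_closedBall_zero_iff.1 (hR' h)
      linarith [le_max_right R (R' + 1)]
    have h1 : e y = y := by rw [he]; exact (off_supp hy' t).2.2.1
    have h2 : e.symm y = y := by rw [← h1, e.symm_apply_apply, h1]
    rw [h2]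
    exact hR y ((le_max_left _ _).trans hy)
  · refine hd.reg _ hy ?_
    have h1 : HasFDerivAt (fun z => φ (e.symm z)) (fderiv ℝ (fun z => φ (e.symm z)) y) y :=
      (((hd.smooth.comp hsymm).differentiable (by norm_num)) y).hasFDerivAt
    rw [h0, show y = e (e.symm y) from (e.apply_symm_apply y).symm] at h1
    have h2 := h1.comp (e.symm y) (hfd (e.symm y))
    simp only [Function.comp_def, e.symm_apply_apply, ContinuousLinearMap.zero_comp] at h2
    exact h2.fderiv
  · ext y
    constructor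
    · intro hy
      exact ⟨e.symm y, hy, by rw [← he, e.apply_symm_apply]⟩
    · rintro ⟨x, hx, rfl⟩
      show φ (e.symm (disp X t x)) < 0
      rwa [← he, e.symm_apply_apply]

/-- A regular window exists around the level zero. -/
theorem exists_window (hd : Defining φ) : ∃ η, RegWindow φ η := by
  obtain ⟨R, hR⟩ := hd.far
  set Z := Metric.closedBall (0 : Space n) R ∩ {x | fderiv ℝ φ x = 0}
  have hZ : IsCompact Z := (isCompact_closedBall _ _).inter_right
    (isClosed_eq (hd.smooth.continuous_fderiv (by norm_num)) continuous_const)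
  have hsmall : ∃ η > 0, ∀ x ∈ Z, η < |φ x| := by
    rcases Z.eq_empty_or_nonempty with he | hne
    · exact ⟨1, one_pos, by simp [he]⟩
    obtain ⟨x0, hx0, hmin⟩ := hZ.exists_isMinOn hne hd.smooth.continuous.abs.continuousOn
    have h0 : 0 < |φ x0| := abs_pos.2 fun h => hd.reg x0 h hx0.2
    exact ⟨|φ x0| / 2, by linarith, fun x hx => lt_of_lt_of_le (by linarith) (hmin hx)⟩
  obtain ⟨η, hη, hηZ⟩ := hsmall
  refine ⟨min η (1 / 2), lt_min hη (by norm_num), (min_le_right _ _).trans_lt (by norm_num),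
    fun x hx h0 => ?_⟩
  rcases le_or_gt ‖x‖ R with hxR | hxR
  · have := hηZ x ⟨mem_closedBall_zero_iff.2 hxR, h0⟩
    linarith [min_le_left η (1 / 2)]
  · have h1 := hR x hxR.le
    rw [abs_of_nonneg (by linarith)] at hx
    linarith [min_le_right η (1 / 2)]

/-- Regular level points lie in the closure of the sublevel set. -/
theorem mem_closure_sub {x : Space n} (hφ : DifferentiableAt ℝ φ x) (hx : φ x = 0)
    (h : fderiv ℝ φ x ≠ 0) : x ∈ closure (sub φ 0) := by
  obtain ⟨v, hv⟩ : ∃ v, fderiv ℝ φ x v ≠ 0 := by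
    by_contra hc
    push Not at hc
    exact h (ContinuousLinearMap.ext fun v => by simpa using hc v)
  obtain ⟨u, hu⟩ : ∃ u, fderiv ℝ φ x u < 0 := by
    rcases lt_or_gt_of_ne hv with h1 | h1
    · exact ⟨v, h1⟩
    · exact ⟨-v, by simpa using h1⟩
  have hd : HasDerivAt (fun s : ℝ => φ (x + s • u)) (fderiv ℝ φ x u) 0 := by
    have h1 : HasDerivAt (fun s : ℝ => x + s • u) u 0 := by
      simpa using ((hasDerivAt_id (0 : ℝ)).smul_const u).const_add x
    exact hφ.hasFDerivAt.comp_hasDerivAt_of_eq (0 : ℝ) h1 (by simp)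
  have hev : ∀ᶠ s in 𝓝[>] (0 : ℝ), x + s • u ∈ sub φ 0 := by
    filter_upwards [(hd.tendsto_slope_zero_right).eventually_lt_const hu, eventually_mem_nhdsWithin]
      with s hs hpos
    have hpos' : (0 : ℝ) < s := hpos
    simp only [zero_add, zero_smul, add_zero, hx, sub_zero, smul_eq_mul, inv_mul_lt_iff₀ hpos',
      mul_zero] at hs
    exact hs
  refine mem_closure_of_tendsto (f := fun s : ℝ => x + s • u) (b := 𝓝[>] (0 : ℝ)) ?_ hev
  exact ((by fun_prop : Continuous fun s : ℝ => x + s • u).tendsto' 0 x (by simp)).mono_left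
    nhdsWithin_le_nhds

/-- A sublevel set of a function is mapped into itself if the field increases it on the
boundary. -/
theorem stays_inside {ψ : Space n → ℝ} (hψ : ContDiff ℝ ∞ ψ) (hX : ContDiff ℝ 2 X) {M : ℝ}
    (hK : IsCompact {x | ψ x ≤ M}) (hpos : ∀ x, ψ x = M → 0 < fderiv ℝ ψ x (X x)) :
    ∀ᶠ t in 𝓝[>] (0 : ℝ), ∀ x, ψ x ≤ M → ψ (disp X t x) ≤ M := by
  have hd : ∀ s x, HasDerivAt (fun t => ψ (disp X t x)) (-fderiv ℝ ψ (disp X s x) (X x)) s := by
    intro s x
    have h1 : HasDerivAt (fun t => disp X t x) (-(X x)) s := by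
      have h := ((hasDerivAt_id s).smul_const (X x)).const_sub x
      simpa [disp] using h
    exact (((hψ.differentiable (by simp)) _).hasFDerivAt.comp_hasDerivAt s h1).congr_deriv
      (by rw [map_neg])
  have hD : Continuous fun q : ℝ × Space n => fderiv ℝ ψ (disp X q.1 q.2) (X q.2) :=
    ((hψ.continuous_fderiv (by simp)).comp ((contDiff_disp hX).continuous)).clm_apply
      (hX.continuous.comp continuous_snd)
  have hev : ∀ᶠ t in 𝓝 (0 : ℝ), ∀ x ∈ {x | ψ x ≤ M}, 0 < t → ψ x ≤ M → ψ (disp X t x) ≤ M := by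
    refine hK.eventually_forall_of_forall_eventually fun x0 hx0 => ?_
    rcases (show ψ x0 ≤ M from hx0).lt_or_eq with hlt | heq
    · have : ContinuousAt (fun q : ℝ × Space n => ψ (disp X q.1 q.2)) (0, x0) :=
        (hψ.continuous.comp (contDiff_disp hX).continuous).continuousAt
      filter_upwards [this.eventually_lt_const (by simpa [disp] using hlt)] with q hq _ _
      exact hq.le
    · have h0 : 0 < fderiv ℝ ψ (disp X 0 x0) (X x0) := by simpa [disp] using hpos x0 heq
      obtain ⟨ρ, hρ, hball⟩ := Metric.eventually_nhds_iff.1 ((hD.continuousAt (x := ((0 : ℝ), x0))).eventually_const_lt h0)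
      refine Metric.eventually_nhds_iff.2 ⟨ρ, hρ, fun q hq ht hx => ?_⟩
      obtain ⟨c, hc, hs⟩ := exists_hasDerivAt_eq_slope (fun t => ψ (disp X t q.2))
        (fun s => -fderiv ℝ ψ (disp X s q.2) (X q.2)) ht
        (fun s _ => (hd s q.2).continuousAt.continuousWithinAt) fun s _ => hd s q.2
      rw [Prod.dist_eq, max_lt_iff, Real.dist_eq, sub_zero, abs_of_pos ht] at hq
      have hc' := hball (y := (c, q.2)) (by
        rw [Prod.dist_eq, max_lt_iff, Real.dist_eq, sub_zero, abs_of_pos hc.1]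
        exact ⟨hc.2.trans hq.1, hq.2⟩)
      have h2 : ψ (disp X 0 q.2) = ψ q.2 := by simp [disp]
      rw [sub_zero, eq_div_iff ht.ne', h2] at hs
      nlinarith [mul_pos ht hc']
  filter_upwards [hev.filter_mono nhdsWithin_le_nhds, eventually_mem_nhdsWithin] with t ht hpos x hx
  exact ht x hx hpos hx

end

end Vale.Agent.P219.Six.FV
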