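import Mathlib
import Vale.Agent.P219.Univ.FirstVar.Bound
import Vale.Agent.P219.Univ.PerBasics

/-!
# First order bounds for the maps `x ↦ x - t • X x`, uniform on compact sets
-/

open Filter Topology Set
open scoped ContDiff RealInnerProductSpace

set_option maxSynthPendingDepth 3

namespace Vale.Agent.P219.Six.FV

open Vale.Agent.P219 Vale.Agent.P219.Univ Vale.Agent.P219.Univ.FirstVar

noncomputable section

variable {n : ℕ} {g : MetricField n} {X : Space n → Space n}

/-- A continuously differentiable function lies below its first order expansion, up to an error,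
uniformly on compact sets. -/
theorem uniform_upper {P : Type*} [NormedAddCommGroup P] [NormedSpace ℝ P] {f : ℝ × P → ℝ}
    (hf : ContDiff ℝ 1 f) {K : Set P} (hK : IsCompact K) {e : ℝ} (he : 0 < e) :
    ∀ᶠ t in 𝓝[>] (0 : ℝ), ∀ p ∈ K, f (t, p) ≤ f (0, p) + t * (fderiv ℝ f (0, p) (1, 0) + e) := by
  have hline : ∀ s p, HasDerivAt (fun t => f (t, p)) (fderiv ℝ f (s, p) (1, 0)) s := fun s p =>
    ((hf.differentiable one_ne_zero) (s, p)).hasFDerivAt.comp_hasDerivAt s
      ((hasDerivAt_id s).prodMk (hasDerivAt_const s p))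
  have hD : Continuous fun q : ℝ × P => fderiv ℝ f q (1, 0) :=
    (hf.continuous_fderiv one_ne_zero).clm_apply continuous_const
  have hev := hK.eventually_forall_of_forall_eventually (x₀ := (0 : ℝ))
    (P := fun s p => fderiv ℝ f (s, p) (1, 0) < fderiv ℝ f (0, p) (1, 0) + e) fun p _ => by
      refine ContinuousAt.eventually_lt hD.continuousAt ?_ (by simpa using he)
      exact ((hD.comp (continuous_const.prodMk continuous_snd)).add continuous_const).continuousAt
  obtain ⟨δ, hδ, hball⟩ := Metric.eventually_nhds_iff.1 hev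
  filter_upwards [Ioo_mem_nhdsGT hδ] with t ht p hp
  obtain ⟨c, hc, hslope⟩ := exists_hasDerivAt_eq_slope (fun t => f (t, p))
    (fun s => fderiv ℝ f (s, p) (1, 0)) ht.1
    (fun s _ => (hline s p).continuousAt.continuousWithinAt) fun s _ => hline s p
  have hlt : fderiv ℝ f (c, p) (1, 0) < fderiv ℝ f (0, p) (1, 0) + e := hball (by
    rw [Real.dist_eq, sub_zero, abs_of_pos hc.1]; linarith [hc.2, ht.2]) p hp
  rw [hslope, sub_zero, div_lt_iff₀ ht.1] at hlt
  linarith

/-- The metric is coercive, uniformly on compact sets. -/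
theorem coercive (hg : IsMetric g) {K : Set (Space n)} (hK : IsCompact K) :
    ∃ m > 0, ∀ x ∈ K, ∀ v, m * ‖v‖ ^ 2 ≤ g x v v := by
  rcases (K ×ˢ Metric.sphere (0 : Space n) 1).eq_empty_or_nonempty with he | hne
  · refine ⟨1, one_pos, fun x hx v => ?_⟩
    rcases eq_or_ne v 0 with rfl | hv
    · simp
    · have h : (x, ‖v‖⁻¹ • v) ∈ K ×ˢ Metric.sphere (0 : Space n) 1 :=
        ⟨hx, by simp [norm_smul, inv_mul_cancel₀ (norm_ne_zero_iff.2 hv)]⟩
      simp [he] at h
  obtain ⟨q, hq, hmin⟩ := (hK.prod (isCompact_sphere (0 : Space n) 1)).exists_isMinOn hne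
    (contDiff_quad hg (F := Space n × Space n) contDiff_fst contDiff_snd).continuous.continuousOn
  refine ⟨g q.1 q.2 q.2, hg.pos q.1 q.2 fun h0 => by simpa [h0] using hq.2, fun x hx v => ?_⟩
  rcases eq_or_ne v 0 with rfl | hv
  · simp
  have hv' := norm_ne_zero_iff.2 hv
  have h : g q.1 q.2 q.2 ≤ g x (‖v‖⁻¹ • v) (‖v‖⁻¹ • v) :=
    hmin (show (x, ‖v‖⁻¹ • v) ∈ _ from ⟨hx, by simp [norm_smul, inv_mul_cancel₀ hv']⟩)
  simp only [map_smul, smul_apply, smul_eq_mul] at h
  have h2 := mul_le_mul_of_nonneg_right h (sq_nonneg ‖v‖)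
  refine h2.trans (le_of_eq ?_)
  field_simp

/-- The pulled back bilinear form. -/
def pullForm (g : MetricField n) (X : Space n → Space n) (t : ℝ) (x u v : Space n) : ℝ :=
  g (disp X t x) (dDisp X t x u) (dDisp X t x v)

theorem pullForm_near (hg : IsMetric g) (hX : ContDiff ℝ 2 X) {K : Set (Space n)}
    (hK : IsCompact K) :
    ∃ C, 0 ≤ C ∧ ∀ᶠ t in 𝓝[>] (0 : ℝ), ∀ x ∈ K, ∀ u v,
      |pullForm g X t x u v - g x u v| ≤ C * t * (‖u‖ * ‖v‖) := by
  obtain ⟨f, hf⟩ : ∃ f : ℝ × (Space n × Space n × Space n) → ℝ,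
      f = fun q => pullForm g X q.1 q.2.1 q.2.2.1 q.2.2.2 := ⟨_, rfl⟩
  have hfs : ContDiff ℝ 1 f := by
    rw [hf]
    have h0 : ContDiff ℝ 1 fun q : ℝ × (Space n × Space n × Space n) => ((q.1, q.2.1) : ℝ × Space n) :=
      contDiff_fst.prodMk (contDiff_fst.comp contDiff_snd)
    have h1 := ((contDiff_disp hX).of_le (show (1 : ℕ∞ω) ≤ 2 by norm_num)).comp h0
    have h2 := (contDiff_dDisp hX).comp h0
    have hu : ContDiff ℝ 1 fun q : ℝ × (Space n × Space n × Space n) => q.2.2.1 :=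
      contDiff_fst.comp (contDiff_snd.comp contDiff_snd)
    have hv : ContDiff ℝ 1 fun q : ℝ × (Space n × Space n × Space n) => q.2.2.2 :=
      contDiff_snd.comp (contDiff_snd.comp contDiff_snd)
    exact (((hg.smooth.of_le (by exact_mod_cast le_top)).comp h1).clm_apply
      (h2.clm_apply hu)).clm_apply (h2.clm_apply hv)
  set S := K ×ˢ (Metric.sphere (0 : Space n) 1 ×ˢ Metric.sphere (0 : Space n) 1)
  have hS : IsCompact S :=
    hK.prod ((isCompact_sphere (0 : Space n) 1).prod (isCompact_sphere (0 : Space n) 1))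
  obtain ⟨M, hM⟩ := hS.exists_bound_of_continuousOn
    (((hfs.continuous_fderiv one_ne_zero).comp (continuous_const.prodMk continuous_id :
      Continuous fun p : Space n × Space n × Space n => ((0 : ℝ), p))).clm_apply
        (continuous_const (y := ((1 : ℝ), (0 : Space n × Space n × Space n))))).continuousOn
  refine ⟨max M 0 + 1, by positivity, ?_⟩
  filter_upwards [uniform_upper hfs hS one_pos, uniform_upper hfs.neg hS one_pos,
    eventually_mem_nhdsWithin] with t h1 h2 ht x hx u v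
  have ht0 : 0 < t := ht
  rcases eq_or_ne u 0 with rfl | hu
  · simp [pullForm]
  rcases eq_or_ne v 0 with rfl | hv
  · simp [pullForm]
  have hu' := norm_ne_zero_iff.2 hu
  have hv' := norm_ne_zero_iff.2 hv
  set p : Space n × Space n × Space n := (x, ‖u‖⁻¹ • u, ‖v‖⁻¹ • v)
  have hp : p ∈ S := ⟨hx, by simp [p, norm_smul, inv_mul_cancel₀ hu'],
    by simp [p, norm_smul, inv_mul_cancel₀ hv']⟩
  have hneg : fderiv ℝ (fun q => -f q) (0, p) (1, 0) = -fderiv ℝ f (0, p) (1, 0) := by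
    rw [fderiv_fun_neg]; rfl
  have a1 := h1 p hp
  have a2 := h2 p hp
  erw [hneg] at a2
  have hb := abs_le.1 ((hM p hp).trans (le_max_left M 0))
  simp only [Function.comp_apply] at hb
  have hb' : |f (t, p) - f (0, p)| ≤ (max M 0 + 1) * t := by
    rw [abs_le]; constructor <;> nlinarith
  have e1 : f (t, p) - f (0, p) = (‖u‖ * ‖v‖)⁻¹ * (pullForm g X t x u v - g x u v) := by
    simp only [hf, p, pullForm, disp_zero, dDisp_zero, one_apply_eq_self, map_smul, smul_apply,
      smul_eq_mul]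
    field_simp
  rw [e1, abs_mul, abs_inv, abs_of_pos (by positivity : 0 < ‖u‖ * ‖v‖),
    inv_mul_le_iff₀ (by positivity)] at hb'
  linarith

/-- The volume ratio to first order. -/
theorem ratio_bounds (hg : IsMetric g) (hX : ContDiff ℝ 2 X) {K : Set (Space n)}
    (hK : IsCompact K) {e : ℝ} (he : 0 < e) :
    ∀ᶠ t in 𝓝[>] (0 : ℝ), ∀ x ∈ K, 1 + t * (-gDiv g X x - e) ≤ ratio g X t x ∧
      ratio g X t x ≤ 1 + t * (-gDiv g X x + e) := by
  have hf := contDiff_ratio hg hX
  have hd : ∀ x, fderiv ℝ (fun p : ℝ × Space n => ratio g X p.1 p.2) (0, x) (1, 0) =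
      -gDiv g X x := fun x => by
    have h := ((hf.differentiable one_ne_zero) (0, x)).hasFDerivAt.comp_hasDerivAt (0 : ℝ)
      ((hasDerivAt_id (0 : ℝ)).prodMk (hasDerivAt_const (0 : ℝ) x))
    simp only [Function.comp_def, id] at h
    exact h.unique (ratio_deriv hg hX x)
  filter_upwards [uniform_upper hf hK he, uniform_upper hf.neg hK he] with t h1 h2 x hx
  have a1 := h1 x hx
  have a2 := h2 x hx
  erw [fderiv_fun_neg] at a2
  simp only [hd, ratio_zero hg, neg_apply] at a1 a2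
  exact ⟨by linarith, by linarith⟩

/-- The arithmetic of `normal_bound`. -/
theorem normal_alg {m t e C Λ Cd Cc dn a cN dv r B11 B12 B21 B22 : ℝ} (hm : 0 < m) (ht : 0 < t)
    (he : 0 < e) (hB : B11 + B12 + B21 + B22 ≤ 1) (h11 : -B11 ≤ -1 + t * (2 * cN + e / 4))
    (h12 : a - C * t * (Λ * dn) ≤ B12) (h21 : a - C * t * (Λ * dn) ≤ B21)
    (h22 : m * dn ^ 2 - C * t * (dn * dn) ≤ B22) (hCt : C * t ≤ m / 2)
    (hp : t * (C ^ 2 * Λ ^ 2 * 2 / m) ≤ e / 8) (hm' : t * ((|Cd| + e) * (|Cc| + e)) ≤ e / 4)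
    (h1 : t * (|Cd| + |Cc| + e) ≤ 1) (hc : |cN| ≤ |Cc|) (hd : |dv| ≤ |Cd|)
    (hr1 : 1 + t * (-dv - e / 4) ≤ r) (hr2 : r ≤ 1 + t * (-dv + e / 4)) :
    r * (1 + a) ≤ 1 + t * (e - dv + cN) := by
  have e5 : m / 2 * (dn - 2 * (C * t * Λ) / m) ^ 2 =
      m / 2 * dn ^ 2 - 2 * (C * t * (Λ * dn)) + t * t * (C ^ 2 * Λ ^ 2 * 2 / m) := by
    field_simp
    ring
  have hsq : 0 ≤ m / 2 * (dn - 2 * (C * t * Λ) / m) ^ 2 := by positivity
  have h3 : C * t * (dn * dn) ≤ m / 2 * dn ^ 2 := by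
    rw [← sq]; exact mul_le_mul_of_nonneg_right hCt (sq_nonneg _)
  have hp2 := mul_le_mul_of_nonneg_left hp ht.le
  have ha : a ≤ t * (cN + e / 4) := by linarith
  obtain ⟨hc1, hc2⟩ := abs_le.1 hc
  obtain ⟨hd1, hd2⟩ := abs_le.1 hd
  have u1 := mul_le_mul_of_nonneg_left hd2 ht.le
  have u2 := mul_le_mul_of_nonneg_left hc1 ht.le
  have u3 := mul_nonneg ht.le (abs_nonneg Cc)
  have u4 := mul_nonneg ht.le (abs_nonneg Cd)
  have u5 := mul_pos ht he
  have hr0 : 0 ≤ r := by linarith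
  have hB0 : 0 ≤ 1 + t * (cN + e / 4) := by linarith
  have hcross : (-dv + e / 4) * (cN + e / 4) ≤ (|Cd| + e) * (|Cc| + e) := by
    refine (le_abs_self _).trans ?_
    rw [abs_mul]
    gcongr <;> rw [abs_le] <;> constructor <;> linarith
  have v1 := (mul_le_mul_of_nonneg_left (by linarith : 1 + a ≤ 1 + t * (cN + e / 4)) hr0).trans
    (mul_le_mul_of_nonneg_right hr2 hB0)
  have v2 := mul_le_mul_of_nonneg_left hcross (mul_nonneg ht.le ht.le)
  have v3 := mul_le_mul_of_nonneg_left hm' ht.le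
  linarith

/-- The normal component of a pulled back unit vector to first order. -/
theorem normal_bound (hg : IsMetric g) (hX : ContDiff ℝ 2 X) {K : Set (Space n)}
    (hK : IsCompact K) {e : ℝ} (he : 0 < e) :
    ∀ᶠ t in 𝓝[>] (0 : ℝ), ∀ x ∈ K, ∀ N, g x N N = 1 → ∀ w, sqPush g X t (x, w) ≤ 1 →
      ratio g X t x * g x w N ≤ 1 + t * (e - gDiv g X x + g x (cov g X x N) N) := by
  obtain ⟨m, hm, hmK⟩ := coercive hg hK
  obtain ⟨C, hC0, hC⟩ := pullForm_near hg hX hK
  set U := {p : Space n × Space n | p.1 ∈ K ∧ g p.1 p.2 p.2 = 1}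
  have hUb : ∀ p ∈ U, ‖p.2‖ ≤ Real.sqrt (1 / m) := fun p hp => by
    refine Real.le_sqrt_of_sq_le ?_
    rw [le_div_iff₀ hm]
    linarith [hmK p.1 hp.1 p.2, hp.2]
  have hU : IsCompact U := by
    refine (hK.prod (isCompact_closedBall (0 : Space n) (Real.sqrt (1 / m)))).of_isClosed_subset
      ((hK.isClosed.preimage continuous_fst).inter (isClosed_eq
        (contDiff_quad hg (F := Space n × Space n) contDiff_fst contDiff_snd).continuous
        continuous_const)) fun p hp => ⟨hp.1, mem_closedBall_zero_iff.2 (hUb p hp)⟩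
  have hq := (contDiff_sqPush hg hX).neg
  have hqd : ∀ p : Space n × Space n,
      fderiv ℝ (fun q : ℝ × (Space n × Space n) => -sqPush g X q.1 q.2) (0, p) (1, 0) =
        2 * g p.1 (cov g X p.1 p.2) p.2 := fun p => by
    have h := ((hq.differentiable one_ne_zero) (0, p)).hasFDerivAt.comp_hasDerivAt (0 : ℝ)
      ((hasDerivAt_id (0 : ℝ)).prodMk (hasDerivAt_const (0 : ℝ) p))
    simp only [Function.comp_def, id] at h
    refine h.unique ?_
    simpa using (sqPush_deriv hg hX p.1 p.2).fun_neg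
  have hcovc : Continuous fun p : Space n × Space n => g p.1 (cov g X p.1 p.2) p.2 := by
    have h1 : Continuous fun p : Space n × Space n =>
        fderiv ℝ (fun q : ℝ × (Space n × Space n) => -sqPush g X q.1 q.2) (0, p) (1, 0) :=
      ((hq.continuous_fderiv one_ne_zero).comp (continuous_const.prodMk continuous_id)).clm_apply
        continuous_const
    simp only [hqd] at h1
    exact (h1.div_const 2).congr fun p => by ring
  obtain ⟨Cc, hCc⟩ := hU.exists_bound_of_continuousOn hcovc.continuousOn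
  obtain ⟨Cd, hCd⟩ : ∃ Cd, ∀ x ∈ K, ‖gDiv g X x‖ ≤ Cd :=
    hK.exists_bound_of_continuousOn (Continuous.continuousOn
      ((continuous_divg (contDiff_weighted hg (hX.of_le (by norm_num)))).div
        (contDiff_dens hg).continuous fun x => (dens_pos hg x).ne'))
  set Λ := Real.sqrt (1 / m)
  set Cp := C ^ 2 * Λ ^ 2 * 2 / m
  set Cm := (|Cd| + e) * (|Cc| + e)
  have hsmall : ∀ᶠ t in 𝓝[>] (0 : ℝ),
      C * t ≤ m / 2 ∧ t * Cp ≤ e / 8 ∧ t * Cm ≤ e / 4 ∧ t * (|Cd| + |Cc| + e) ≤ 1 := by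
    have hl : ∀ a b : ℝ, 0 < b → ∀ᶠ t in 𝓝[>] (0 : ℝ), t * a ≤ b := fun a b hb =>
      (((continuous_id.mul continuous_const).tendsto' (0 : ℝ) 0 (zero_mul a)).eventually_le_const
        hb).filter_mono nhdsWithin_le_nhds
    filter_upwards [hl C (m / 2) (by linarith), hl Cp _ (by linarith : 0 < e / 8),
      hl Cm _ (by linarith : 0 < e / 4), hl (|Cd| + |Cc| + e) 1 one_pos] with t a b c d
    exact ⟨by linarith, b, c, d⟩
  filter_upwards [hC, ratio_bounds hg hX hK (by linarith : 0 < e / 4),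
    uniform_upper hq hU (by linarith : 0 < e / 4), hsmall, eventually_mem_nhdsWithin]
    with t hnear hr hn hsm ht x hx N hN w hw
  obtain ⟨hCt, hp', hm', h1'⟩ := hsm
  have ht0 : 0 < t := ht
  have hmemU : (x, N) ∈ U := ⟨hx, hN⟩
  set d := w - N
  set cN := g x (cov g X x N) N
  set a := g x d N
  have hw' : w = N + d := (add_sub_cancel N w).symm
  have hexp : sqPush g X t (x, w) =
      pullForm g X t x N N + pullForm g X t x N d + pullForm g X t x d N + pullForm g X t x d d := by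
    simp only [sqPush, pullForm, hw', map_add, _root_.add_apply]
    ring
  have hnn := hn (x, N) hmemU
  erw [hqd] at hnn
  have h0 : sqPush g X 0 (x, N) = 1 := by simpa [sqPush, disp_zero, dDisp_zero] using hN
  have hNN : pullForm g X t x N N = sqPush g X t (x, N) := rfl
  have b1 := (abs_le.1 (hnear x hx N d)).1
  have b2 := (abs_le.1 (hnear x hx d N)).1
  have b3 := (abs_le.1 (hnear x hx d d)).1
  have hNd : g x N d = a := hg.symm x N d
  have hb4 := hmK x hx d
  have hΛ : ‖N‖ ≤ Λ := hUb (x, N) hmemU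
  have hC1 : C * t * (‖N‖ * ‖d‖) ≤ C * t * (Λ * ‖d‖) := by gcongr
  have hC2 : C * t * (‖d‖ * ‖N‖) ≤ C * t * (Λ * ‖d‖) := by
    rw [mul_comm ‖d‖]; exact hC1
  have hwN : g x w N = 1 + a := by rw [hw', map_add, _root_.add_apply, hN]
  have hcN : |cN| ≤ |Cc| := (hCc (x, N) hmemU).trans (le_abs_self _)
  have hdv : |gDiv g X x| ≤ |Cd| := (hCd x hx).trans (le_abs_self _)
  obtain ⟨hr1, hr2⟩ := hr x hx
  simp only [h0] at hnn
  rw [hwN]
  exact normal_alg hm ht0 he (dn := ‖d‖) (Λ := Λ) (a := a)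
    (B11 := pullForm g X t x N N) (B12 := pullForm g X t x N d) (B21 := pullForm g X t x d N)
    (B22 := pullForm g X t x d d) (by linarith [hexp, hw]) (by linarith [hnn, hNN])
    (by linarith [b1, hNd, hC1]) (by linarith [b2, hC2]) (by linarith [b3, hb4]) hCt hp' hm' h1'
    hcN hdv hr1 hr2

end

end Vale.Agent.P219.Six.FV
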